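import Vale.Agent.Lib.P047.Sharp

namespace Vale.Agent.Lib.P047

open Finset

/-- one more sign -/
theorem sum_tot_succ (k : ℕ) (F : ℝ → ℝ) :
    ∑ x : Fin (k + 1) → Bool, F (tot x) = ∑ x : Fin k → Bool, (F (tot x + 1) + F (tot x - 1)) := by
  rw [← (Fin.consEquiv (fun _ : Fin (k + 1) => Bool)).sum_comp, Fintype.sum_prod_type,
    Fintype.sum_bool, ← Finset.sum_add_distrib]
  apply Finset.sum_congr rfl
  intro x _
  have h1 : tot ((Fin.consEquiv (fun _ : Fin (k + 1) => Bool)) (true, x)) = tot x + 1 := by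
    simp [tot, Fin.consEquiv, Fin.sum_univ_succ, sgn]
    ring
  have h2 : tot ((Fin.consEquiv (fun _ : Fin (k + 1) => Bool)) (false, x)) = tot x - 1 := by
    simp [tot, Fin.consEquiv, Fin.sum_univ_succ, sgn]
    ring
  rw [h1, h2]

theorem sum_tot_zero (F : ℝ → ℝ) : ∑ x : Fin 0 → Bool, F (tot x) = F 0 := by
  simp [tot]

/-- two independent blocks of signs -/
theorem sum_sum_tot (m k : ℕ) (F : ℝ → ℝ) :
    ∑ x : Fin m → Bool, ∑ y : Fin k → Bool, F (tot x + tot y)
      = ∑ z : Fin (m + k) → Bool, F (tot z) := by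
  induction k generalizing F with
  | zero =>
    show ∑ x : Fin m → Bool, ∑ y : Fin 0 → Bool, F (tot x + tot y)
      = ∑ z : Fin m → Bool, F (tot z)
    apply Finset.sum_congr rfl
    intro x _
    rw [sum_tot_zero (fun s => F (tot x + s))]
    simp
  | succ k ih =>
    show ∑ x : Fin m → Bool, ∑ y : Fin (k + 1) → Bool, F (tot x + tot y)
      = ∑ z : Fin ((m + k) + 1) → Bool, F (tot z)
    rw [sum_tot_succ (m + k) F, ← ih (fun s => F (s + 1) + F (s - 1))]
    apply Finset.sum_congr rfl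
    intro x _
    rw [sum_tot_succ k (fun s => F (tot x + s))]
    apply Finset.sum_congr rfl
    intro y _
    simp only [add_assoc, add_sub_assoc]

theorem B_eq (n : ℕ) : B n = (∑ x : Fin n → Bool, |tot x|) / 2 ^ n := rfl

theorem sum_sum_abs (m k : ℕ) :
    ∑ x : Fin m → Bool, ∑ y : Fin k → Bool, |tot x + tot y| = 2 ^ (m + k) * B (m + k) := by
  rw [sum_sum_tot m k (fun s => |s|), B_eq]
  field_simp

private lemma abs_step (t : ℝ) (ht : 1 ≤ |t|) : |t + 1| + |t - 1| = 2 * |t| := by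
  rcases le_abs.1 ht with h | h
  · rw [abs_of_nonneg (by linarith : (0 : ℝ) ≤ t + 1), abs_of_nonneg (by linarith : (0 : ℝ) ≤ t - 1),
      abs_of_nonneg (by linarith : (0 : ℝ) ≤ t)]
    ring
  · rw [abs_of_nonpos (by linarith : t + 1 ≤ 0), abs_of_nonpos (by linarith : t - 1 ≤ 0),
      abs_of_nonpos (by linarith : t ≤ 0)]
    ring

private lemma one_le_abs_tot {n : ℕ} (hn : Odd n) (x : Fin n → Bool) : 1 ≤ |tot x| := by
  rw [tot_eq]
  have h : (2 * (cnt x : ℝ) - n) = ((2 * (cnt x : ℤ) - (n : ℤ) : ℤ) : ℝ) := by push_cast; ring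
  rw [h, ← Int.cast_abs]
  have h2 : (1 : ℤ) ≤ |2 * (cnt x : ℤ) - (n : ℤ)| := by
    apply Int.one_le_abs
    obtain ⟨j, hj⟩ := hn
    omega
  exact_mod_cast h2

theorem B_succ_of_odd (n : ℕ) (hn : Odd n) : B (n + 1) = B n := by
  rw [B_eq, B_eq, sum_tot_succ n (fun s => |s|)]
  have h : ∀ x : Fin n → Bool, |tot x + 1| + |tot x - 1| = 2 * |tot x| :=
    fun x => abs_step _ (one_le_abs_tot hn x)
  simp_rw [h]
  rw [← Finset.mul_sum, pow_succ]
  field_simp

private def stp (F : ℝ → ℝ) : ℝ → ℝ := fun s => F (s + 1) + F (s - 1)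

private lemma sum_tot_iter (k : ℕ) (F : ℝ → ℝ) :
    ∑ x : Fin k → Bool, F (tot x) = (stp^[k] F) 0 := by
  induction k generalizing F with
  | zero => rw [sum_tot_zero]; rfl
  | succ k ih =>
    rw [sum_tot_succ k F]
    exact ih (stp F)

theorem B_four : B 4 = 3 / 2 := by
  rw [B_eq, sum_tot_iter 4 (fun s => |s|)]
  simp only [Function.iterate_succ, Function.iterate_zero, Function.comp, id, stp]
  norm_num [abs_of_pos, abs_of_neg]

theorem B_five : B 5 = 15 / 8 := by
  rw [B_eq, sum_tot_iter 5 (fun s => |s|)]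
  simp only [Function.iterate_succ, Function.iterate_zero, Function.comp, id, stp]
  norm_num [abs_of_pos, abs_of_neg]

theorem card_balanced_pos (m : ℕ) (hm : Even m) :
    0 < (Finset.univ.filter (fun x : Fin m → Bool => tot x = 0)).card := by
  obtain ⟨j, rfl⟩ := hm
  rw [Finset.card_pos]
  refine ⟨fun i => decide (i.val < j), ?_⟩
  rw [Finset.mem_filter]
  refine ⟨Finset.mem_univ _, ?_⟩
  unfold tot
  have h1 : ∑ i : Fin (j + j), sgn (decide (i.val < j))
      = ∑ i ∈ Finset.range (j + j), (if i < j then (1 : ℝ) else -1) := by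
    rw [← Fin.sum_univ_eq_sum_range (fun i => if i < j then (1 : ℝ) else -1) (j + j)]
    apply Finset.sum_congr rfl
    intro i _
    by_cases h : i.val < j <;> simp [sgn, h]
  rw [h1, Finset.sum_range_add]
  have h2 : ∑ x ∈ Finset.range j, (if x < j then (1 : ℝ) else -1) = j := by
    rw [Finset.sum_congr rfl (g := fun _ => (1 : ℝ))]
    · simp
    · intro x hx
      rw [if_pos (Finset.mem_range.1 hx)]
  have h3 : ∑ x ∈ Finset.range j, (if j + x < j then (1 : ℝ) else -1) = -j := by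
    rw [Finset.sum_congr rfl (g := fun _ => (-1 : ℝ))]
    · simp
    · intro x _
      rw [if_neg (by omega)]
  rw [h2, h3]; ring

end Vale.Agent.Lib.P047
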