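import Vale.Agent.Lib.P047.Tens.Gen

namespace Vale.Agent.Lib.P047.Tens

open Finset Vale.Agent.Lib.P047

/-- threshold function with offset `s` on `k` bits -/
noncomputable def thr (k : ℕ) (s : ℝ) : (Fin k → Bool) → ℝ :=
  fun y => if 0 ≤ s + tot y then 1 else -1

theorem thr_bool (k : ℕ) (s : ℝ) : IsBool (thr k s) := by
  intro y; unfold thr; split_ifs <;> simp

theorem thr_deg (k : ℕ) (s : ℝ) : DegLE (thr k s) k := by
  intro S hS
  exfalso
  have h := Finset.card_le_univ S
  rw [Fintype.card_fin] at h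
  omega

theorem thr_stat (k : ℕ) (s : ℝ) :
    s * fou (thr k s) ∅ + lev1 (thr k s) = (∑ y : Fin k → Bool, |s + tot y|) / 2 ^ k := by
  rw [fou_fin, lev1_fin, levelOne_eq]
  have h0 : fourier (thr k s) ∅ = (∑ y : Fin k → Bool, thr k s y) / 2 ^ k := by
    simp [fourier]
  rw [h0, mul_div_assoc', ← add_div, Finset.mul_sum, ← Finset.sum_add_distrib]
  congr 1
  apply Finset.sum_congr rfl
  intro y _
  unfold thr
  split_ifs with h
  · rw [abs_of_nonneg h]; ring
  · rw [abs_of_neg (not_le.1 h)]; ring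

end Vale.Agent.Lib.P047.Tens
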