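import Vale.Agent.Lib.P047.Glue.Lift
import Vale.Agent.Lib.P047.Glue.Step
import Vale.Agent.Lib.P047.Glue.Thr
import Vale.Agent.Lib.P047.Tens.Extra

namespace Vale.Agent.Lib.P047

open Finset Tens

/-- a balanced Boolean function of degree at most five with level-one sum `17/8` -/
theorem exists_f10 : ∃ (N : ℕ) (F : (Fin N → Bool) → ℝ), IsBool F ∧ DegLE F 5 ∧ fou F ∅ = 0 ∧
    lev1 F = 17 / 8 := by
  have hb : IsBool f9 := f9_bool
  have hd : DegLE f9 5 := fun S hS => by rw [fou_fin]; exact f9_deg S hS
  obtain ⟨N, F, h1, h2, h3, h4⟩ := oddExt_exists f9 hb (by decide : Odd 5) hd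
  refine ⟨N, F, h1, h2, h3, ?_⟩
  rw [h4, lev1_fin, fou_fin, f9_levelOne, f9_mean]
  rw [abs_of_neg (by norm_num)]
  norm_num

/-- Majority on `m + 5` bits, improved on the set where the first `m` bits are balanced. -/
theorem beat_maj (m : ℕ) : ∃ (N : ℕ) (F : (Fin N → Bool) → ℝ), IsBool F ∧ DegLE F (m + 5) ∧
    lev1 F = B (m + 5) +
      ((Finset.univ.filter (fun x : Fin m → Bool => tot x = 0)).card : ℝ) / 2 ^ m / 4 := by
  obtain ⟨N, F, h1, h2, h3, h4⟩ := exists_f10
  let g : (Fin m → Bool) → (Fin 5 ⊕ Fin N → Bool) → ℝ := fun x =>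
    if tot x = 0 then liftR F else liftL (thr 5 (tot x))
  have gb : ∀ x, IsBool (g x) := by
    intro x
    simp only [g]
    split_ifs
    · exact liftR_bool h1
    · exact liftL_bool (thr_bool 5 _)
  have gd : ∀ x, DegLE (g x) 5 := by
    intro x
    simp only [g]
    split_ifs
    · exact liftR_deg h2
    · exact liftL_deg (thr_deg 5 _)
  have gs : ∀ x : Fin m → Bool, (∑ a, sgn (x a)) * fou (g x) ∅ + lev1 (g x)
      = (∑ y : Fin 5 → Bool, |tot x + tot y|) / 2 ^ 5 + (if tot x = 0 then 1 / 4 else 0) := by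
    intro x
    simp only [g]
    split_ifs with h0
    · rw [liftR_mean, liftR_lev1, h3, h4, h0]
      have hB := B_five
      unfold B at hB
      simp only [zero_add]
      unfold tot
      rw [hB]
      norm_num
    · rw [liftL_mean, liftL_lev1]
      have := thr_stat 5 (tot x)
      rw [add_zero, ← this]
      rfl
  obtain ⟨G, e1, e2, _, e4⟩ := exists_fin (glue g)
  refine ⟨_, G, e1 (glue_bool gb), ?_, ?_⟩
  · have := e2 _ (glue_deg gd)
    simpa using this
  · rw [e4, glue_lev1]
    simp_rw [gs]
    rw [Finset.sum_add_distrib, ← Finset.sum_div, sum_sum_abs, Fintype.card_fin, add_div]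
    congr 1
    · rw [pow_add]
      field_simp
    · rw [Finset.sum_ite, Finset.sum_const_zero, add_zero, Finset.sum_const, nsmul_eq_mul]
      ring

/-- The level-one sum of majority is beaten in every degree at least four. -/
theorem B_lt_M (d : ℕ) (hd : 4 ≤ d) : B d < M d := by
  have hodd : ∀ d, 5 ≤ d → Odd d → B d < M d := by
    intro d h5 ho
    obtain ⟨m, rfl⟩ : ∃ m, d = m + 5 := ⟨d - 5, by omega⟩
    have hm : Even m := by
      rcases Nat.even_or_odd m with h | h
      · exact h
      · exfalso
        have : Even (m + 5) := h.add_odd (by decide)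
        exact (Nat.not_even_iff_odd.mpr ho) this
    obtain ⟨N, F, h1, h2, h3⟩ := beat_maj m
    have hle : lev1 F ≤ M (m + 5) := by
      rw [lev1_fin]
      exact le_M F h1 (fun S hS => by rw [← fou_fin]; exact h2 S hS)
    have hpos : (0 : ℝ) <
        ((Finset.univ.filter (fun x : Fin m → Bool => tot x = 0)).card : ℝ) / 2 ^ m / 4 := by
      have : (0 : ℝ) < ((Finset.univ.filter (fun x : Fin m → Bool => tot x = 0)).card : ℝ) := by
        exact_mod_cast card_balanced_pos m hm
      positivity
    linarith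
  rcases Nat.even_or_odd d with he | ho
  · rcases Nat.lt_or_ge d 5 with h | h
    · have : d = 4 := by omega
      subst this
      rw [B_four, M_four]; norm_num
    · obtain ⟨n, rfl⟩ : ∃ n, d = n + 1 := ⟨d - 1, by omega⟩
      have hn : Odd n := by
        rcases Nat.even_or_odd n with h' | h'
        · exfalso
          exact (Nat.not_even_iff_odd.mpr h'.add_one) he
        · exact h'
      rw [B_succ_of_odd n hn]
      have h5 : 5 ≤ n := by
        obtain ⟨k, hk⟩ := he
        omega
      exact lt_of_lt_of_le (hodd n h5 hn) (M_mono (Nat.le_succ n))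
  · have h5 : 5 ≤ d := by
      obtain ⟨k, hk⟩ := ho
      omega
    exact hodd d h5 ho

end Vale.Agent.Lib.P047
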