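import Vale.Agent.Lib.P047.Tens.Gen

namespace Vale.Agent.Lib.P047.Tens

open Finset Vale.Agent.Lib.P047

variable {α β : Type*} [Fintype α] [DecidableEq α] [Fintype β] [DecidableEq β]

/-- gluing: read all the variables of the block `α`, then apply a function of the block `β` that
depends on what was read -/
noncomputable def glue (g : (α → Bool) → (β → Bool) → ℝ) : (α ⊕ β → Bool) → ℝ :=
  fun z => g (fun a => z (Sum.inl a)) (fun b => z (Sum.inr b))

theorem glue_bool {g : (α → Bool) → (β → Bool) → ℝ} (hg : ∀ x, IsBool (g x)) :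
    IsBool (glue g) := fun _ => hg _ _

/-- the character of `S` splits into its left and right parts -/
lemma prod_split (S : Finset (α ⊕ β)) (z : α ⊕ β → Bool) :
    ∏ i ∈ S, sgn (z i) =
      (∏ a ∈ S.toLeft, sgn (z (Sum.inl a))) * ∏ b ∈ S.toRight, sgn (z (Sum.inr b)) := by
  conv_lhs => rw [← Finset.toLeft_disjSum_toRight (u := S)]
  rw [Finset.prod_disjSum]

/-- Fubini on the cube over a sum type -/
lemma sum_sumArrow (F : (α ⊕ β → Bool) → ℝ) :
    ∑ z : α ⊕ β → Bool, F z =
      ∑ x : α → Bool, ∑ y : β → Bool, F (Sum.elim x y) := by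
  rw [← Fintype.sum_prod_type']
  refine Fintype.sum_equiv (Equiv.sumArrowEquivProdArrow α β Bool) _ _ ?_
  intro z
  congr 1
  funext i
  cases i <;> rfl

theorem fou_glue (g : (α → Bool) → (β → Bool) → ℝ) (S : Finset (α ⊕ β)) :
    fou (glue g) S =
      (∑ x : α → Bool, (∏ a ∈ S.toLeft, sgn (x a)) * fou (g x) S.toRight) /
        2 ^ Fintype.card α := by
  unfold fou
  rw [sum_sumArrow, Fintype.card_sum, pow_add, mul_comm ((2:ℝ) ^ Fintype.card α), div_mul_eq_div_div]
  congr 1
  rw [Finset.sum_div]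
  refine Finset.sum_congr rfl ?_
  intro x _
  rw [mul_div_assoc', Finset.mul_sum]
  congr 1
  refine Finset.sum_congr rfl ?_
  intro y _
  rw [prod_split]
  simp only [glue, Sum.elim_inl, Sum.elim_inr]
  ring

theorem glue_deg {g : (α → Bool) → (β → Bool) → ℝ} {r : ℕ} (hg : ∀ x, DegLE (g x) r) :
    DegLE (glue g) (Fintype.card α + r) := by
  intro S hS
  rw [fou_glue]
  have h1 : S.toLeft.card + S.toRight.card = S.card := Finset.card_toLeft_add_card_toRight
  have h2 : S.toLeft.card ≤ Fintype.card α := Finset.card_le_univ _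
  have h3 : r < S.toRight.card := by omega
  have : ∀ x : α → Bool, (∏ a ∈ S.toLeft, sgn (x a)) * fou (g x) S.toRight = 0 := by
    intro x
    rw [hg x _ h3, mul_zero]
  simp [this]

theorem glue_lev1 (g : (α → Bool) → (β → Bool) → ℝ) :
    lev1 (glue g) =
      (∑ x : α → Bool, ((∑ a, sgn (x a)) * fou (g x) ∅ + lev1 (g x))) /
        2 ^ Fintype.card α := by
  unfold lev1
  rw [Fintype.sum_sum_type]
  have hl : ∀ a : α, fou (glue g) {Sum.inl a} =
      (∑ x : α → Bool, sgn (x a) * fou (g x) ∅) / 2 ^ Fintype.card α := by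
    intro a
    rw [fou_glue]
    have e1 : ({Sum.inl a} : Finset (α ⊕ β)).toLeft = {a} := by ext y; simp
    have e2 : ({Sum.inl a} : Finset (α ⊕ β)).toRight = ∅ := by ext y; simp
    rw [e1, e2]
    simp
  have hr : ∀ b : β, fou (glue g) {Sum.inr b} =
      (∑ x : α → Bool, fou (g x) {b}) / 2 ^ Fintype.card α := by
    intro b
    rw [fou_glue]
    have e1 : ({Sum.inr b} : Finset (α ⊕ β)).toLeft = ∅ := by ext y; simp
    have e2 : ({Sum.inr b} : Finset (α ⊕ β)).toRight = {b} := by ext y; simp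
    rw [e1, e2]
    simp
  simp only [hl, hr]
  rw [← Finset.sum_div, ← Finset.sum_div, ← add_div]
  congr 1
  rw [Finset.sum_comm, Finset.sum_comm (s := (Finset.univ : Finset β)), ← Finset.sum_add_distrib]
  refine Finset.sum_congr rfl ?_
  intro x _
  rw [Finset.sum_mul]

end Vale.Agent.Lib.P047.Tens
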