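import Vale.Agent.Lib.P047.Glue.Glue
import Vale.Agent.Lib.P047.Tens.Inv

namespace Vale.Agent.Lib.P047.Tens

open Finset Vale.Agent.Lib.P047

variable {α β : Type*} [Fintype α] [DecidableEq α] [Fintype β] [DecidableEq β]

/-- a function of the left block seen as a function of both blocks -/
noncomputable def liftL (g : (α → Bool) → ℝ) : (α ⊕ β → Bool) → ℝ :=
  fun z => g (fun a => z (Sum.inl a))

/-- a function of the right block seen as a function of both blocks -/
noncomputable def liftR (g : (β → Bool) → ℝ) : (α ⊕ β → Bool) → ℝ :=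
  fun z => g (fun b => z (Sum.inr b))

lemma fou_const (c : ℝ) (T : Finset β) :
    fou (fun _ : β → Bool => c) T = c * (if T = ∅ then 1 else 0) := by
  rw [← fou_one T]
  unfold fou
  rw [← mul_div_assoc, Finset.mul_sum]
  congr 1
  refine Finset.sum_congr rfl fun y _ => ?_
  ring

theorem fou_liftL (g : (α → Bool) → ℝ) (S : Finset (α ⊕ β)) :
    fou (liftL g : (α ⊕ β → Bool) → ℝ) S = if S.toRight = ∅ then fou g S.toLeft else 0 := by
  have h : (liftL g : (α ⊕ β → Bool) → ℝ) = glue (fun x _ => g x) := rfl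
  rw [h, fou_glue]
  simp only [fou_const]
  split_ifs with hS
  · unfold fou
    congr 1
    refine Finset.sum_congr rfl fun x _ => ?_
    ring
  · simp

theorem fou_liftR (g : (β → Bool) → ℝ) (S : Finset (α ⊕ β)) :
    fou (liftR g : (α ⊕ β → Bool) → ℝ) S = if S.toLeft = ∅ then fou g S.toRight else 0 := by
  have h : (liftR g : (α ⊕ β → Bool) → ℝ) = glue (fun _ y => g y) := rfl
  have h1 : (∑ x : α → Bool, (∏ a ∈ S.toLeft, sgn (x a)) * fou g S.toRight) /
        2 ^ Fintype.card α = fou (fun _ : α → Bool => (1 : ℝ)) S.toLeft * fou g S.toRight := by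
    unfold fou
    rw [← Finset.sum_mul]
    simp only [one_mul]
    ring
  rw [h, fou_glue, h1, fou_one]
  split_ifs <;> simp

theorem liftL_bool {g : (α → Bool) → ℝ} (hg : IsBool g) :
    IsBool (liftL g : (α ⊕ β → Bool) → ℝ) := fun _ => hg _

theorem liftR_bool {g : (β → Bool) → ℝ} (hg : IsBool g) :
    IsBool (liftR g : (α ⊕ β → Bool) → ℝ) := fun _ => hg _

theorem liftL_deg {g : (α → Bool) → ℝ} {r : ℕ} (hg : DegLE g r) :
    DegLE (liftL g : (α ⊕ β → Bool) → ℝ) r := by
  intro S hS
  rw [fou_liftL]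
  split_ifs with h
  · apply hg
    have := Finset.card_toLeft_add_card_toRight (u := S)
    rw [h, Finset.card_empty] at this
    omega
  · rfl

theorem liftR_deg {g : (β → Bool) → ℝ} {r : ℕ} (hg : DegLE g r) :
    DegLE (liftR g : (α ⊕ β → Bool) → ℝ) r := by
  intro S hS
  rw [fou_liftR]
  split_ifs with h
  · apply hg
    have := Finset.card_toLeft_add_card_toRight (u := S)
    rw [h, Finset.card_empty] at this
    omega
  · rfl

omit [Fintype α] [Fintype β] [DecidableEq α] [DecidableEq β] in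
lemma toLeft_emp : (∅ : Finset (α ⊕ β)).toLeft = ∅ := by
  ext x; simp

omit [Fintype α] [Fintype β] [DecidableEq α] [DecidableEq β] in
lemma toRight_emp : (∅ : Finset (α ⊕ β)).toRight = ∅ := by
  ext x; simp

theorem liftL_mean (g : (α → Bool) → ℝ) :
    fou (liftL g : (α ⊕ β → Bool) → ℝ) ∅ = fou g ∅ := by
  rw [fou_liftL, toLeft_emp, toRight_emp, if_pos rfl]

theorem liftR_mean (g : (β → Bool) → ℝ) :
    fou (liftR g : (α ⊕ β → Bool) → ℝ) ∅ = fou g ∅ := by
  rw [fou_liftR, toLeft_emp, toRight_emp, if_pos rfl]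

omit [Fintype α] [Fintype β] [DecidableEq α] [DecidableEq β] in
lemma toLeft_inl (a : α) : ({Sum.inl a} : Finset (α ⊕ β)).toLeft = {a} := by
  ext x; simp

omit [Fintype α] [Fintype β] [DecidableEq α] [DecidableEq β] in
lemma toRight_inl (a : α) : ({Sum.inl a} : Finset (α ⊕ β)).toRight = ∅ := by
  ext x; simp

omit [Fintype α] [Fintype β] [DecidableEq α] [DecidableEq β] in
lemma toLeft_inr (b : β) : ({Sum.inr b} : Finset (α ⊕ β)).toLeft = ∅ := by
  ext x; simp

omit [Fintype α] [Fintype β] [DecidableEq α] [DecidableEq β] in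
lemma toRight_inr (b : β) : ({Sum.inr b} : Finset (α ⊕ β)).toRight = {b} := by
  ext x; simp

theorem liftL_lev1 (g : (α → Bool) → ℝ) :
    lev1 (liftL g : (α ⊕ β → Bool) → ℝ) = lev1 g := by
  unfold lev1
  rw [Fintype.sum_sum_type]
  simp only [fou_liftL, toLeft_inl, toRight_inl, toLeft_inr, toRight_inr]
  simp

theorem liftR_lev1 (g : (β → Bool) → ℝ) :
    lev1 (liftR g : (α ⊕ β → Bool) → ℝ) = lev1 g := by
  unfold lev1
  rw [Fintype.sum_sum_type]
  simp only [fou_liftR, toLeft_inl, toRight_inl, toLeft_inr, toRight_inr]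
  simp

end Vale.Agent.Lib.P047.Tens
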